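import Vale.Agent.P269CD.Defs
import Vale.Agent.P269CV.K2

/-!
# P269, block C: chart systems of the universal curve exist (row SYS)
-/

set_option autoImplicit false
set_option linter.all false

noncomputable section

namespace Vale.Agent.P269CY

open Set Filter Vale.Agent.P273.H183 Vale.Agent.P272.K Vale.Agent.P269C Vale.Agent.P269CD
open Vale.Agent.P269CV (k2)
open scoped Topology ContDiff Classical

variable {L : Type} {D : ℕ} {C : Fam L D}

theorem cont_s (hC : C.IsStable) (i : L) : Continuous fun q => C.s i (C.π q) :=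
  continuous_iff_continuousAt.2 fun q =>
    ((hC.2.2.2.2.2 _ (hC.2.2.1 q)).2.1 i).2.1.comp (k2.cπ hC).continuousAt

theorem open_off [Finite L] (hC : C.IsStable) (P : L → Prop) :
    IsOpen {q | ∀ j, P j → q ≠ C.s j (C.π q)} := by
  haveI := hC.2.1
  simp only [Set.ofPred_forall]
  exact isOpen_iInter_of_finite fun j => isOpen_iInter_of_finite fun _ =>
    isOpen_ne_fun continuous_id (cont_s hC j)

theorem isCh_restr {e : OpenPartialHomeomorph C.X (Cm (D + 1))} (he : IsCh C e) (V : Set C.X)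
    (hV : IsOpen V) : IsCh C (e.restrOpen V hV) := fun q hq f => he q hq.1 f

theorem ex_ch [Finite L] (t3 : T3) (hK : Kur C) (p : C.X) : ∃ c : Ch C, p ∈ c.e.source := by
  have hC := hK.1
  by_cases h : ∃ i, p = C.s i (C.π p)
  · obtain ⟨i, hi⟩ := h
    have hs := fun q => (hC.2.2.2.2.2 _ (hC.2.2.1 q)).2.1
    obtain ⟨z, z1, z2⟩ := k2.ex hC (p := p) (hi ▸ (hs p i).2.2.2.2)
    have a : AnalyticAt ℂ (fun b => z (C.s i b)) (C.π p) := (hs p i).2.2.1 z (hi ▸ z1)
    have w1 : C.hol (fun q => z q - z (C.s i (C.π q))) p :=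
      k2.han hC (fun u => u.2.1 - z (C.s i u.1)) z1 z1
        ((analyticAt_fst.comp analyticAt_snd).sub (a.comp_of_eq analyticAt_fst rfl))
    have w2 : Co C (fun q => z q - z (C.s i (C.π q))) p := by
      refine ⟨⟨_, w1, EventuallyEq.rfl⟩, ?_⟩
      obtain ⟨U, hU, hz⟩ := z2.2
      refine ⟨U ∩ C.fib (C.π p), inter_mem hU self_mem_nhdsWithin, fun q hq q' hq' e => ?_⟩
      have e1 : C.π q = C.π p := hq.2
      have e2 : C.π q' = C.π p := hq'.2
      simp only [e1, e2, sub_left_inj] at e
      exact hz hq.1 hq'.1 e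
    obtain ⟨e, he, h1, h2⟩ := t3.co hC _ p w1 w2
    have o : IsOpen ((fun q => C.s i (C.π q)) ⁻¹' e.source ∩
        {q | ∀ j, j ≠ i → q ≠ C.s j (C.π q)}) :=
      (e.open_source.preimage (cont_s hC i)).inter (open_off hC _)
    have dj : ∀ q j, j ≠ i → C.s i (C.π q) ≠ C.s j (C.π q) := fun q j hj c =>
      hj ((hs q i).2.2.2.1 j c).symm
    refine ⟨⟨e.restrOpen _ o, some i, isCh_restr h1 _ o, ?_, ?_⟩, he, ?_, ?_⟩
    · rintro j ⟨⟩ q ⟨q1, q2, q3⟩
      have e0 := (hs q i).1
      refine ⟨?_, ⟨q2, ?_, ?_⟩, ?_⟩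
      · show pr (e q) = _
        rw [h2 q q1, pr, Fin.init_snoc]
      · show C.s i (C.π (C.s i (C.π q))) ∈ e.source
        rw [e0]; exact q2
      · intro j hj
        rw [e0]; exact dj q j hj
      · show e _ = _
        rw [h2 _ q2, e0, sub_self, sl]
    · intro j hj q hq
      exact hq.2.2 j fun c => hj (by rw [c])
    · show C.s i (C.π p) ∈ e.source
      rw [← hi]; exact he
    · intro j hj
      have := dj p j hj
      rwa [← hi] at this
  · obtain ⟨e, he, h1⟩ := t3.ex hK p
    have o := open_off hC fun _ => True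
    exact ⟨⟨e.restrOpen _ o, none, isCh_restr h1 _ o, fun _ c => (by cases c),
      fun j _ q hq => hq.2 j trivial⟩, he, fun j _ c => h ⟨j, c⟩⟩

variable {e e' : OpenPartialHomeomorph C.X (Cm (D + 1))} {y : Cm (D + 1)}

theorem an_of (he : IsCh C e) (hy : y ∈ e.target) {f : C.X → ℂ} (hf : C.hol f (e.symm y)) :
    AnalyticAt ℂ (fun x => f (e.symm x)) y := by
  have := (he _ (e.map_target hy) f).1 hf
  rwa [e.right_inv hy] at this

theorem hol_co (he : IsCh C e) {q : C.X} (hq : q ∈ e.source) (k : Fin (D + 1)) :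
    C.hol (fun x => e x k) q := by
  refine (he q hq _).2 (AnalyticAt.congr (f := fun x : Cm (D + 1) => x k)
    ((ContinuousLinearMap.proj (R := ℂ) (φ := fun _ => ℂ) k).analyticAt _) ?_)
  filter_upwards [e.open_target.mem_nhds (e.map_source hq)] with x hx
  rw [e.right_inv hx]

theorem an_tr (he : IsCh C e) (he' : IsCh C e') (hy : y ∈ e.target) (h : e.symm y ∈ e'.source) :
    AnalyticAt ℂ (fun x => e' (e.symm x)) y :=
  analyticAt_pi_iff.2 fun k => an_of he hy (hol_co he' h k)

theorem an_pi (hC : C.IsStable) (he : IsCh C e) (hy : y ∈ e.target) :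
    AnalyticAt ℂ (fun x => C.π (e.symm x)) y :=
  analyticAt_pi_iff.2 fun k => by
    have h0 := hol_co he (e.map_target hy) 0
    exact an_of he hy (k2.han hC (fun u => u.1 k) h0 h0
      (((ContinuousLinearMap.proj (R := ℂ) (φ := fun _ => ℂ) k).analyticAt _).comp analyticAt_fst))

theorem sm_of {E : ℕ} {φ : Cm (D + 1) → Cm E} (h : AnalyticAt ℂ φ y) : ContDiffAt ℝ ∞ φ y :=
  (h.contDiffAt (n := ∞)).restrict_scalars ℝ

theorem sm_cut (hC : C.IsStable) (he : IsCh C e) (he' : IsCh C e') (hy : y ∈ e.target)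
    {f : Cm (D + 1) → ℝ} (hf : ContDiff ℝ ∞ f) (hc : HasCompactSupport f)
    (hs : tsupport f ⊆ e'.target) :
    ContDiffAt ℝ ∞ (fun x => if e.symm x ∈ e'.source then f (e' (e.symm x)) else 0) y := by
  haveI := hC.2.1
  have c := e.continuousAt_symm hy
  by_cases h : e.symm y ∈ e'.source
  · refine (hf.contDiffAt.comp y (sm_of (an_tr he he' hy h))).congr_of_eventuallyEq ?_
    filter_upwards [c.eventually (e'.open_source.mem_nhds h)] with x hx
    exact if_pos hx
  · have k : IsClosed (e'.symm '' tsupport f) :=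
      (hc.isCompact.image_of_continuousOn (e'.continuousOn_symm.mono hs)).isClosed
    have n : e.symm y ∈ (e'.symm '' tsupport f)ᶜ := by
      rintro ⟨x, hx, ex⟩
      exact h (ex ▸ e'.map_target (hs hx))
    refine (contDiffAt_const (c := (0 : ℝ))).congr_of_eventuallyEq ?_
    filter_upwards [c.eventually (k.isOpen_compl.mem_nhds n)] with x hx
    split_ifs with o
    · by_contra z
      exact hx ⟨_, subset_tsupport f z, e'.left_inv o⟩
    · rfl

theorem sys (t3 : T3) : SYS := by
  intro L _ D C γ hK hγ hc hB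
  have hC := hK.1
  choose c hc' using ex_ch t3 hK
  have hb : ∀ p, ∃ f : Cm (D + 1) → ℝ, tsupport f ⊆ (c p).e.target ∧ HasCompactSupport f ∧
      ContDiff ℝ ∞ f ∧ range f ⊆ Icc 0 1 ∧ f ((c p).e p) = 1 := fun p =>
    exists_contDiff_tsupport_subset ((c p).e.open_target.mem_nhds ((c p).e.map_source (hc' p)))
  choose f f1 f2 f3 f4 f5 using hb
  obtain ⟨t, -, ht⟩ := (hC.2.2.2.1 _ hB hc).elim_nhds_subcover
    (fun p => {q | q ∈ (c p).e.source ∧ 0 < f p ((c p).e q)}) fun p _ => by
      have a : ContinuousAt (fun q => f p ((c p).e q)) p :=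
        (f3 p).continuous.continuousAt.comp ((c p).e.continuousAt (hc' p))
      exact ((c p).e.open_source.eventually_mem (hc' p)).and
        (a.eventually (lt_mem_nhds (one_pos.trans_eq (f5 p).symm)))
  let P : Fin t.card → C.X := fun j => (t.equivFin.symm j).1
  let b : Fin t.card → C.X → ℝ := fun j q =>
    if q ∈ (c (P j)).e.source then f (P j) ((c (P j)).e q) else 0
  have b0 : ∀ j q, 0 ≤ b j q := fun j q => by
    simp only [b]
    split_ifs
    · exact (f4 _ (mem_range_self _)).1
    · exact le_rfl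
  have pos : ∀ q, C.π q ∈ tsupport γ → ∑ j, b j q ≠ 0 := fun q hq => by
    obtain ⟨p, hp, h⟩ := mem_iUnion₂.1 (ht hq)
    refine (Finset.sum_pos' (fun j _ => b0 j q) ⟨t.equivFin ⟨p, hp⟩, Finset.mem_univ _, ?_⟩).ne'
    have e : P (t.equivFin ⟨p, hp⟩) = p := by simp [P]
    simp only [b, e, if_pos h.1]
    exact h.2
  refine ⟨⟨t.card, fun j => c (P j), fun j y => f (P j) y *
    (γ (C.π ((c (P j)).e.symm y)) / ∑ l, b l ((c (P j)).e.symm y)), fun j => ?_, fun p => ?_⟩⟩
  · refine ⟨contDiff_iff_contDiffAt.2 fun y => ?_, (f2 _).mul_right,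
      (tsupport_mul_subset_left).trans (f1 _)⟩
    by_cases hy : y ∈ tsupport (f (P j))
    · have ht := f1 _ hy
      have ap := sm_of (an_pi hC (c (P j)).hol ht)
      refine (f3 _).contDiffAt.mul ?_
      by_cases hq : C.π ((c (P j)).e.symm y) ∈ tsupport γ
      · exact (hγ.contDiffAt.comp y ap).div (ContDiffAt.sum fun l _ =>
          sm_cut hC (c (P j)).hol (c (P l)).hol ht (f3 _) (f2 _) (f1 _)) (pos _ hq)
      · refine (contDiffAt_const (c := (0 : ℝ))).congr_of_eventuallyEq ?_
        filter_upwards [ap.continuousAt.eventually ((isClosed_tsupport γ).isOpen_compl.mem_nhds hq)]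
          with x hx
        rw [image_eq_zero_of_notMem_tsupport hx, zero_div]
    · refine (contDiffAt_const (c := (0 : ℝ))).congr_of_eventuallyEq ?_
      filter_upwards [(isClosed_tsupport _).isOpen_compl.mem_nhds hy] with x hx
      rw [image_eq_zero_of_notMem_tsupport hx, zero_mul]
  · rw [Finset.sum_congr rfl (g := fun j => b j p * (γ (C.π p) / ∑ l, b l p)) fun j _ => ?_,
      ← Finset.sum_mul]
    · by_cases hq : C.π p ∈ tsupport γ
      · exact mul_div_cancel₀ _ (pos p hq)
      · rw [image_eq_zero_of_notMem_tsupport hq, zero_div, mul_zero]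
    · by_cases o : p ∈ (c (P j)).e.source
      · rw [if_pos o, (c (P j)).e.left_inv o]
        simp only [b, if_pos o]
      · rw [if_neg o]
        simp only [b, if_neg o, zero_mul]

end Vale.Agent.P269CY
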